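import Vale.Agent.P205.Chart

/-!
P205, module Nash: one spiral of high frequency adds `ρ² (a dx + b dy)²` up to a uniformly small
error, and keeps an immersion with a unit normal field.
-/

noncomputable section

open Set Real Filter Topology
open scoped ContDiff

namespace Vale.Agent.P205

open Wave (V4 ip D gram2 lift2 cross)

namespace Nash

/-- Gram determinant of three vectors, the first two spanning a plane. -/
def gram3 (p q w : V4) : ℝ :=
  ip w w * gram2 p q - ip p w ^ 2 * ip q q + 2 * (ip p q * ip p w * ip q w) - ip q w ^ 2 * ip p p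

theorem perp2_orth {p q : V4} (h : gram2 p q ≠ 0) (w : V4) :
    ip (perp2 p q w) p = 0 ∧ ip (perp2 p q w) q = 0 := by
  obtain ⟨h1, h2⟩ := Wave.ip_lift2 h (ip p w) (ip q w)
  constructor
  · rw [perp2, Wave.ip_sub_left, Wave.ip_comm _ p, Wave.ip_comm _ p, h1, sub_self]
  · rw [perp2, Wave.ip_sub_left, Wave.ip_comm _ q, Wave.ip_comm _ q, h2, sub_self]

theorem perp2_sq {p q : V4} (h : gram2 p q ≠ 0) (w : V4) :
    ip (perp2 p q w) (perp2 p q w) * gram2 p q = gram3 p q w := by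
  obtain ⟨h1, h2⟩ := perp2_orth h w
  have e : ip (perp2 p q w) (perp2 p q w) = ip (perp2 p q w) w := by
    conv_lhs => arg 2; rw [perp2]
    rw [Wave.ip_sub_right, lift2, Wave.ip_add_right, Wave.ip_smul_right, Wave.ip_smul_right,
      h1, h2]
    simp
  rw [e, perp2, Wave.ip_sub_left, lift2, Wave.ip_add_left, Wave.ip_smul_left, Wave.ip_smul_left,
    gram3]
  field_simp
  ring

theorem perp2_of_normal {p q w : V4} (h1 : ip p w = 0) (h2 : ip q w = 0) : perp2 p q w = w := by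
  simp [perp2, lift2, h1, h2]

variable (Z n : R2 → V4) (a b : ℝ) (ρ : R2 → ℝ)

/-- The second unit normal. -/
def nu (z : R2) : V4 :=
  (sqrt (gram2 (D (1, 0) Z z) (D (0, 1) Z z)))⁻¹ • cross (D (1, 0) Z z) (D (0, 1) Z z) (n z)

/-- The phase form. -/
def ph (e : R2) : ℝ := a * e.1 + b * e.2

/-- The profile at the point `p` of the circle. -/
def prof (z : R2) (p : ℝ × ℝ) : V4 := p.1 • n z + p.2 • nu Z n z

/-- The derivative of the profile with respect to the angle. -/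
def dprof (z : R2) (p : ℝ × ℝ) : V4 := (-p.2) • n z + p.1 • nu Z n z

/-- The part of order `1 / k` of a derivative of the spiral. -/
def rest (e : R2) (z : R2) (p : ℝ × ℝ) : V4 :=
  D e ρ z • prof Z n z p + ρ z • (p.1 • D e n z + p.2 • D e (nu Z n) z)

/-- A derivative of the spiral, `t` being the inverse frequency. -/
def dX (e : R2) (t : ℝ) (z : R2) (p : ℝ × ℝ) : V4 :=
  D e Z z + (ρ z * ph a b e) • dprof Z n z p + t • rest Z n ρ e z p

/-- The spiral. -/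
def spiral (k : ℝ) (z : R2) : V4 :=
  Z z + (k⁻¹ * ρ z) • prof Z n z (cos (k * ph a b z), sin (k * ph a b z))

/-- The circle. -/
def circle : Set (ℝ × ℝ) := {p | p.1 ^ 2 + p.2 ^ 2 = 1}

theorem isCompact_circle : IsCompact circle := by
  refine (isCompact_Icc.prod isCompact_Icc).of_isClosed_subset
    (s := Icc (-1 : ℝ) 1 ×ˢ Icc (-1 : ℝ) 1) (isClosed_eq (by fun_prop) continuous_const) ?_
  intro p hp
  have hp' : p.1 ^ 2 + p.2 ^ 2 = 1 := hp
  exact ⟨⟨by nlinarith, by nlinarith⟩, ⟨by nlinarith, by nlinarith⟩⟩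

variable {Z n} {Ω : Set R2}

theorem smooth_cross {f g h : R2 → V4} (hf : ContDiffOn ℝ ∞ f Ω) (hg : ContDiffOn ℝ ∞ g Ω)
    (hh : ContDiffOn ℝ ∞ h Ω) : ContDiffOn ℝ ∞ (fun z => cross (f z) (g z) (h z)) Ω := by
  have hf' := contDiffOn_pi.1 hf
  have hg' := contDiffOn_pi.1 hg
  have hh' := contDiffOn_pi.1 hh
  refine contDiffOn_pi.2 fun i => ?_
  have := hf' 0
  have := hf' 1
  have := hf' 2
  have := hf' 3
  have := hg' 0
  have := hg' 1
  have := hg' 2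
  have := hg' 3
  have := hh' 0
  have := hh' 1
  have := hh' 2
  have := hh' 3
  fin_cases i <;> simp [cross] <;> fun_prop

theorem smooth_gram2 {f g : R2 → V4} (hf : ContDiffOn ℝ ∞ f Ω) (hg : ContDiffOn ℝ ∞ g Ω) :
    ContDiffOn ℝ ∞ (fun z => gram2 (f z) (g z)) Ω :=
  ((Wave.contDiffOn_ip hf hf).mul (Wave.contDiffOn_ip hg hg)).sub
    ((Wave.contDiffOn_ip hf hg).pow 2)

theorem smooth_nu (hΩ : IsOpen Ω) (hZ : ContDiffOn ℝ ∞ Z Ω) (hn : ContDiffOn ℝ ∞ n Ω)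
    (himm : ImmOn Ω Z) : ContDiffOn ℝ ∞ (nu Z n) Ω := by
  have hx := Wave.contDiffOn_D hΩ hZ ((1, 0) : R2)
  have hy := Wave.contDiffOn_D hΩ hZ ((0, 1) : R2)
  exact (((smooth_gram2 hx hy).sqrt fun z hz => (himm z hz).ne').inv
    fun z hz => (sqrt_pos.2 (himm z hz)).ne').smul (smooth_cross hx hy hn)

theorem nu_spec (himm : ImmOn Ω Z) (hun : UnitNormalOn Ω Z n) {z : R2} (hz : z ∈ Ω) :
    ip (nu Z n z) (nu Z n z) = 1 ∧ ip (D (1, 0) Z z) (nu Z n z) = 0 ∧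
      ip (D (0, 1) Z z) (nu Z n z) = 0 ∧ ip (n z) (nu Z n z) = 0 := by
  obtain ⟨h1, h2, h3⟩ := hun z hz
  obtain ⟨c1, c2, c3⟩ := Wave.ip_cross (D (1, 0) Z z) (D (0, 1) Z z) (n z)
  refine ⟨?_, ?_, ?_, ?_⟩
  · rw [nu, Wave.ip_smul_left, Wave.ip_smul_right, Wave.ip_cross_self, h1,
      Wave.ip_comm _ (n z), h2, Wave.ip_comm _ (n z), h3]
    have hs := mul_self_sqrt (himm z hz).le
    have hp := sqrt_pos.2 (himm z hz)
    field_simp
    linear_combination -hs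
  all_goals simp [nu, c1, c2, c3]

theorem dprof_spec (himm : ImmOn Ω Z) (hun : UnitNormalOn Ω Z n) {z : R2} (hz : z ∈ Ω)
    {p : ℝ × ℝ} (hp : p ∈ circle) :
    ip (dprof Z n z p) (dprof Z n z p) = 1 ∧ ip (dprof Z n z p) (n z) = -p.2 ∧
      ∀ e : R2, ip (D e Z z) (dprof Z n z p) = 0 := by
  obtain ⟨h1, h2, h3⟩ := hun z hz
  obtain ⟨v1, v2, v3, v4⟩ := nu_spec himm hun hz
  have hp' : p.1 ^ 2 + p.2 ^ 2 = 1 := hp
  have v4' : ip (nu Z n z) (n z) = 0 := by rw [Wave.ip_comm, v4]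
  have h2' : ip (D (1, 0) Z z) (n z) = 0 := by rw [Wave.ip_comm, h2]
  have h3' : ip (D (0, 1) Z z) (n z) = 0 := by rw [Wave.ip_comm, h3]
  refine ⟨?_, ?_, fun e => ?_⟩
  · simp [dprof, h1, v1, v4, v4', -neg_smul]
    linear_combination hp'
  · simp [dprof, h1, v4', -neg_smul]
  · have he : D e Z z = e.1 • D (1, 0) Z z + e.2 • D (0, 1) Z z := by
      simp only [D, ← map_smul, ← map_add]
      congr 1
      ext <;> simp
    simp [dprof, he, v2, v3, h2', h3', -neg_smul]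

/-- The values at zero inverse frequency. -/
theorem main_part (himm : ImmOn Ω Z) (hun : UnitNormalOn Ω Z n) {z : R2} (hz : z ∈ Ω)
    {p : ℝ × ℝ} (hp : p ∈ circle) :
    (∀ e e' : R2, ip (dX Z n a b ρ e 0 z p) (dX Z n a b ρ e' 0 z p) =
      ip (D e Z z) (D e' Z z) + ρ z ^ 2 * (ph a b e * ph a b e')) ∧
    0 < gram2 (dX Z n a b ρ (1, 0) 0 z p) (dX Z n a b ρ (0, 1) 0 z p) ∧
    0 < gram3 (dX Z n a b ρ (1, 0) 0 z p) (dX Z n a b ρ (0, 1) 0 z p) (n z) := by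
  obtain ⟨w1, w2, w3⟩ := dprof_spec himm hun hz hp
  obtain ⟨h1, h2, h3⟩ := hun z hz
  have key : ∀ e e' : R2, ip (dX Z n a b ρ e 0 z p) (dX Z n a b ρ e' 0 z p) =
      ip (D e Z z) (D e' Z z) + ρ z ^ 2 * (ph a b e * ph a b e') := fun e e' => by
    simp [dX, w1, w3, Wave.ip_comm (dprof Z n z p) (D e' Z z)]
    ring
  have h2' : ip (D (1, 0) Z z) (n z) = 0 := by rw [Wave.ip_comm, h2]
  have h3' : ip (D (0, 1) Z z) (n z) = 0 := by rw [Wave.ip_comm, h3]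
  have hx : ip (dX Z n a b ρ (1, 0) 0 z p) (n z) = -(ρ z * a * p.2) := by
    simp [dX, ph, w2, h2']
  have hy : ip (dX Z n a b ρ (0, 1) 0 z p) (n z) = -(ρ z * b * p.2) := by
    simp [dX, ph, w2, h3']
  have hg := himm z hz
  set u := D (1, 0) Z z
  set v := D (0, 1) Z z
  -- the square of `a v - b u`
  have hq : 0 ≤ a ^ 2 * ip v v - 2 * (a * b) * ip u v + b ^ 2 * ip u u := by
    have : 0 ≤ ip (a • v - b • u) (a • v - b • u) :=
      Finset.sum_nonneg fun i _ => mul_self_nonneg _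
    simp [Wave.ip_comm v u] at this
    linarith
  have hc : 0 ≤ 1 - p.2 ^ 2 := by
    have hp' : p.1 ^ 2 + p.2 ^ 2 = 1 := hp
    nlinarith
  have hgu : 0 < ip u u * ip v v - ip u v ^ 2 := hg
  refine ⟨key, ?_, ?_⟩
  · simp only [gram2, key, ph]
    ring_nf
    nlinarith [mul_nonneg (sq_nonneg (ρ z)) hq]
  · simp only [gram3, gram2, key, hx, hy, h1, ph]
    ring_nf
    nlinarith [mul_nonneg (mul_nonneg (sq_nonneg (ρ z)) hq) hc]

variable {a b ρ}

theorem hasD_spiral (hΩ : IsOpen Ω) (hZ : ContDiffOn ℝ ∞ Z Ω) (hn : ContDiffOn ℝ ∞ n Ω)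
    (himm : ImmOn Ω Z) (hρ : ContDiff ℝ ∞ ρ) {k : ℝ} (hk : k ≠ 0) {z : R2} (hz : z ∈ Ω)
    (e : R2) :
    D e (spiral Z n a b ρ k) z =
      dX Z n a b ρ e k⁻¹ z (cos (k * ph a b z), sin (k * ph a b z)) := by
  have dd : ∀ {f : R2 → V4}, ContDiffOn ℝ ∞ f Ω → HasFDerivAt f (fderiv ℝ f z) z := fun hf =>
    ((hf.differentiableOn (by simp)).differentiableAt (hΩ.mem_nhds hz)).hasFDerivAt
  have hr : HasFDerivAt ρ (fderiv ℝ ρ z) z := (hρ.differentiable (by simp) z).hasFDerivAt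
  have hφ : HasFDerivAt (fun y => k * ph a b y)
      (k • (a • ContinuousLinearMap.fst ℝ ℝ ℝ + b • ContinuousLinearMap.snd ℝ ℝ ℝ)) z :=
    ((hasFDerivAt_fst.const_mul a).add (hasFDerivAt_snd.const_mul b)).const_mul k
  have hX := (dd hZ).add ((hr.const_mul k⁻¹).smul
    ((hφ.cos.smul (dd hn)).add (hφ.sin.smul (dd (smooth_nu hΩ hZ hn himm)))))
  have hX' : HasFDerivAt (spiral Z n a b ρ k) _ z := hX
  simp only [D, hX'.fderiv]
  ext i
  simp [dX, rest, prof, dprof, ph, D]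
  field_simp
  ring

theorem smooth_spiral (hΩ : IsOpen Ω) (hZ : ContDiffOn ℝ ∞ Z Ω) (hn : ContDiffOn ℝ ∞ n Ω)
    (himm : ImmOn Ω Z) (hρ : ContDiff ℝ ∞ ρ) (k : ℝ) :
    ContDiffOn ℝ ∞ (spiral Z n a b ρ k) Ω := by
  have h1 : ContDiff ℝ ∞ fun y => cos (k * ph a b y) := by unfold ph; fun_prop
  have h2 : ContDiff ℝ ∞ fun y => sin (k * ph a b y) := by unfold ph; fun_prop
  exact hZ.add ((contDiffOn_const.mul hρ.contDiffOn).smul ((h1.contDiffOn.smul hn).add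
    (h2.contDiffOn.smul (smooth_nu hΩ hZ hn himm))))

end Nash

open Nash in
/-- **Nash twist.** -/
theorem nash_twist {Ω : Set R2} (hΩ : IsOpen Ω) {Z n : R2 → V4} (hZ : ContDiffOn ℝ ∞ Z Ω)
    (hn : ContDiffOn ℝ ∞ n Ω) (himm : ImmOn Ω Z) (hun : UnitNormalOn Ω Z n) {a b : ℝ}
    (hab : (a, b) ≠ (0, 0)) {ρ : R2 → ℝ} (hρ : ContDiff ℝ ∞ ρ) (hc : HasCompactSupport ρ)
    (hs : tsupport ρ ⊆ Ω) {ε : ℝ} (hε : 0 < ε) :
    ∃ X m : R2 → V4, ContDiffOn ℝ ∞ X Ω ∧ ContDiffOn ℝ ∞ m Ω ∧ ImmOn Ω X ∧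
      UnitNormalOn Ω X m ∧ (∀ z ∈ Ω, z ∉ tsupport ρ → X z = Z z ∧ m z = n z) ∧
      ∀ z ∈ Ω, ‖met X z - met Z z - ρ z ^ 2 • sqForm a b‖ ≤ ε := by
  have hK : IsCompact (tsupport ρ ×ˢ circle) := hc.prod isCompact_circle
  -- continuity of the derivatives in all variables
  have hnu := smooth_nu hΩ hZ hn himm
  have ho : IsOpen ((univ : Set ℝ) ×ˢ (Ω ×ˢ (univ : Set (ℝ × ℝ)))) :=
    isOpen_univ.prod (hΩ.prod isOpen_univ)
  have hv : ∀ {f : R2 → V4}, ContDiffOn ℝ ∞ f Ω →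
      ContinuousOn (fun q : ℝ × R2 × (ℝ × ℝ) => f q.2.1) (univ ×ˢ Ω ×ˢ univ) := fun hf =>
    hf.continuousOn.comp (f := fun q : ℝ × R2 × (ℝ × ℝ) => q.2.1) (by fun_prop)
      fun q hq => hq.2.1
  have hd : ∀ e : R2, ContinuousOn
      (fun q : ℝ × R2 × (ℝ × ℝ) => dX Z n a b ρ e q.1 q.2.1 q.2.2) (univ ×ˢ Ω ×ˢ univ) := by
    intro e
    have r0 : Continuous fun q : ℝ × R2 × (ℝ × ℝ) => ρ q.2.1 := hρ.continuous.comp (by fun_prop)
    have r1 : Continuous fun q : ℝ × R2 × (ℝ × ℝ) => D e ρ q.2.1 :=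
      ((hρ.continuous_fderiv (by simp)).clm_apply continuous_const).comp (by fun_prop)
    have v1 := hv hn
    have v2 := hv hnu
    have v3 := hv (Wave.contDiffOn_D hΩ hZ e)
    have v4 := hv (Wave.contDiffOn_D hΩ hn e)
    have v5 := hv (Wave.contDiffOn_D hΩ hnu e)
    have t0 : Continuous fun q : ℝ × R2 × (ℝ × ℝ) => q.1 := by fun_prop
    have c0 : Continuous fun q : ℝ × R2 × (ℝ × ℝ) => q.2.2.1 := by fun_prop
    have s0 : Continuous fun q : ℝ × R2 × (ℝ × ℝ) => q.2.2.2 := by fun_prop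
    simp only [dX, rest, prof, dprof]
    exact (v3.add ((r0.continuousOn.mul continuousOn_const).smul
      ((s0.neg.continuousOn.smul v1).add (c0.continuousOn.smul v2)))).add (t0.continuousOn.smul
        ((r1.continuousOn.smul ((c0.continuousOn.smul v1).add (s0.continuousOn.smul v2))).add
          (r0.continuousOn.smul ((c0.continuousOn.smul v4).add (s0.continuousOn.smul v5)))))
  have hip : ∀ {f g : ℝ × R2 × (ℝ × ℝ) → V4} {s : Set (ℝ × R2 × (ℝ × ℝ))},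
      ContinuousOn f s → ContinuousOn g s → ContinuousOn (fun q => ip (f q) (g q)) s :=
    fun hf hg => continuousOn_finsetSum _ fun i _ =>
      ((continuous_apply i).comp_continuousOn hf).mul ((continuous_apply i).comp_continuousOn hg)
  have up : ∀ F : ℝ × R2 × (ℝ × ℝ) → ℝ, ContinuousOn F (univ ×ˢ Ω ×ˢ univ) →
      (∀ z ∈ tsupport ρ, ∀ p ∈ circle, 0 < F (0, z, p)) →
      ∀ᶠ t in 𝓝 (0 : ℝ), ∀ q ∈ tsupport ρ ×ˢ circle, 0 < F (t, q) := fun F hF h0 =>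
    hK.eventually_forall_of_forall_eventually fun q hq =>
      (hF.continuousAt (ho.mem_nhds ⟨trivial, hs hq.1, trivial⟩)).eventually
        (lt_mem_nhds (h0 q.1 hq.1 q.2 hq.2))
  have mp := fun {z} (hz : z ∈ tsupport ρ) {p} (hp : p ∈ circle) =>
    main_part a b ρ himm hun (hs hz) (p := p) hp
  have hm : ∀ e e' : R2, ∀ᶠ t in 𝓝 (0 : ℝ), ∀ q ∈ tsupport ρ ×ˢ circle,
      0 < ε ^ 2 - (ip (dX Z n a b ρ e t q.1 q.2) (dX Z n a b ρ e' t q.1 q.2) -
        ip (D e Z q.1) (D e' Z q.1) - ρ q.1 ^ 2 * (ph a b e * ph a b e')) ^ 2 := by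
    intro e e'
    refine up (fun q => ε ^ 2 - (ip (dX Z n a b ρ e q.1 q.2.1 q.2.2)
      (dX Z n a b ρ e' q.1 q.2.1 q.2.2) - ip (D e Z q.2.1) (D e' Z q.2.1) -
        ρ q.2.1 ^ 2 * (ph a b e * ph a b e')) ^ 2) ?_ fun z hz p hp => ?_
    · have h1 := hip (hd e) (hd e')
      have h2 := hip (hv (Wave.contDiffOn_D hΩ hZ e)) (hv (Wave.contDiffOn_D hΩ hZ e'))
      have r0 : Continuous fun q : ℝ × R2 × (ℝ × ℝ) => ρ q.2.1 := hρ.continuous.comp (by fun_prop)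
      exact continuousOn_const.sub (((h1.sub h2).sub
        ((r0.continuousOn.pow 2).mul continuousOn_const)).pow 2)
    · simp only [(mp hz hp).1]
      ring_nf
      positivity
  have hg2 : ∀ᶠ t in 𝓝 (0 : ℝ), ∀ q ∈ tsupport ρ ×ˢ circle,
      0 < gram2 (dX Z n a b ρ (1, 0) t q.1 q.2) (dX Z n a b ρ (0, 1) t q.1 q.2) := by
    refine up (fun q => gram2 (dX Z n a b ρ (1, 0) q.1 q.2.1 q.2.2)
      (dX Z n a b ρ (0, 1) q.1 q.2.1 q.2.2)) ?_ fun z hz p hp => (mp hz hp).2.1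
    exact ((hip (hd _) (hd _)).mul (hip (hd _) (hd _))).sub ((hip (hd _) (hd _)).pow 2)
  have hg3 : ∀ᶠ t in 𝓝 (0 : ℝ), ∀ q ∈ tsupport ρ ×ˢ circle,
      0 < gram3 (dX Z n a b ρ (1, 0) t q.1 q.2) (dX Z n a b ρ (0, 1) t q.1 q.2) (n q.1) := by
    refine up (fun q => gram3 (dX Z n a b ρ (1, 0) q.1 q.2.1 q.2.2)
      (dX Z n a b ρ (0, 1) q.1 q.2.1 q.2.2) (n q.2.1)) ?_ fun z hz p hp => (mp hz hp).2.2
    have := hip (hd (1, 0)) (hd (0, 1))
    have := hip (hd (1, 0)) (hd (1, 0))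
    have := hip (hd (0, 1)) (hd (0, 1))
    have := hip (hd (1, 0)) (hv hn)
    have := hip (hd (0, 1)) (hv hn)
    have := hip (hv hn) (hv hn)
    simp only [gram3, gram2]
    fun_prop
  obtain ⟨δ, hδ, hev⟩ := Metric.eventually_nhds_iff.1 ((hm (1, 0) (1, 0)).and
    ((hm (1, 0) (0, 1)).and ((hm (0, 1) (0, 1)).and (hg2.and hg3))))
  set k := 2 / δ
  have hk : 0 < k := by positivity
  obtain ⟨e00, e01, e11, g2, g3⟩ := hev (y := k⁻¹) (by
    rw [Real.dist_eq, sub_zero, abs_of_pos (by positivity), inv_div]; linarith)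
  set X := spiral Z n a b ρ k
  set T : R2 → V4 := fun z => perp2 (D (1, 0) X z) (D (0, 1) X z) (n z)
  have hX : ContDiffOn ℝ ∞ X Ω := smooth_spiral hΩ hZ hn himm hρ k
  have pc : ∀ z : R2, (cos (k * ph a b z), sin (k * ph a b z)) ∈ circle := fun z =>
    cos_sq_add_sin_sq _
  have hD := fun {z} (hz : z ∈ Ω) e => hasD_spiral (a := a) (b := b) hΩ hZ hn himm hρ hk.ne' hz e
  have off : ∀ z, z ∉ tsupport ρ → X z = Z z ∧ ∀ e, D e X z = D e Z z := by
    intro z hz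
    have he : X =ᶠ[𝓝 z] Z := by
      filter_upwards [(isClosed_tsupport ρ).isOpen_compl.mem_nhds hz] with y hy
      simp [X, spiral, image_eq_zero_of_notMem_tsupport hy]
    exact ⟨he.self_of_nhds, fun e => by simp [D, he.fderiv_eq]⟩
  have himmX : ImmOn Ω X := fun z hz => by
    by_cases hzs : z ∈ tsupport ρ
    · rw [hD hz, hD hz]
      exact g2 (z, _) ⟨hzs, pc z⟩
    · rw [(off z hzs).2, (off z hzs).2]
      exact himm z hz
  have hTn : ∀ z ∈ Ω, z ∉ tsupport ρ → T z = n z := fun z hz hzs => by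
    obtain ⟨-, h2, h3⟩ := hun z hz
    simp only [T, (off z hzs).2]
    exact perp2_of_normal (by rw [Wave.ip_comm, h2]) (by rw [Wave.ip_comm, h3])
  have hTpos : ∀ z ∈ Ω, 0 < ip (T z) (T z) := fun z hz => by
    by_cases hzs : z ∈ tsupport ρ
    · have h := g3 (z, _) ⟨hzs, pc z⟩
      simp only at h
      rw [← hD hz, ← hD hz, ← perp2_sq (himmX z hz).ne'] at h
      exact (pos_iff_pos_of_mul_pos h).2 (himmX z hz)
    · rw [hTn z hz hzs, (hun z hz).1]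
      exact one_pos
  have hT : ContDiffOn ℝ ∞ T Ω := by
    have hx := Wave.contDiffOn_D hΩ hX ((1, 0) : R2)
    have hy := Wave.contDiffOn_D hΩ hX ((0, 1) : R2)
    have hg := (smooth_gram2 hx hy).inv fun z hz => (himmX z hz).ne'
    simp only [T, perp2, lift2, div_eq_mul_inv]
    exact hn.sub (((((Wave.contDiffOn_ip hx hn).mul (Wave.contDiffOn_ip hy hy)).sub
      ((Wave.contDiffOn_ip hy hn).mul (Wave.contDiffOn_ip hx hy))).mul hg).smul hx |>.add
      (((((Wave.contDiffOn_ip hy hn).mul (Wave.contDiffOn_ip hx hx)).sub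
      ((Wave.contDiffOn_ip hx hn).mul (Wave.contDiffOn_ip hx hy))).mul hg).smul hy))
  refine ⟨X, fun z => (sqrt (ip (T z) (T z)))⁻¹ • T z, hX, ?_, himmX, fun z hz => ?_,
    fun z hz hzs => ?_, fun z hz => ?_⟩
  · exact (((Wave.contDiffOn_ip hT hT).sqrt fun z hz => (hTpos z hz).ne').inv
      fun z hz => (sqrt_pos.2 (hTpos z hz)).ne').smul hT
  · obtain ⟨o1, o2⟩ := perp2_orth (himmX z hz).ne' (n z)
    refine ⟨?_, by simp [T, o1], by simp [T, o2]⟩
    have hs := mul_self_sqrt (hTpos z hz).le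
    have hp := sqrt_pos.2 (hTpos z hz)
    simp only [Wave.ip_smul_left, Wave.ip_smul_right]
    field_simp
    linear_combination -hs
  · refine ⟨(off z hzs).1, ?_⟩
    simp [hTn z hz hzs, (hun z hz).1]
  · refine (pi_norm_le_iff_of_nonneg hε.le).2 fun i => ?_
    rw [Real.norm_eq_abs]
    by_cases hzs : z ∈ tsupport ρ
    · refine abs_le_of_sq_le_sq ?_ hε.le
      have h00 := e00 (z, _) ⟨hzs, pc z⟩
      have h01 := e01 (z, _) ⟨hzs, pc z⟩
      have h11 := e11 (z, _) ⟨hzs, pc z⟩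
      simp only at h00 h01 h11
      rw [← hD hz (1, 0)] at h00 h01
      rw [← hD hz (0, 1)] at h01 h11
      simp only [ph] at h00 h01 h11
      fin_cases i <;> simp [met, sqForm, pow_two] <;> ring_nf at h00 h01 h11 ⊢ <;> linarith
    · simp [met, (off z hzs).2, image_eq_zero_of_notMem_tsupport hzs, hε.le]

end Vale.Agent.P205
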